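import Vale.Agent.Lib.P062.Second.Uniform
import Vale.Agent.Lib.P062.Second.Play

/-!
# P062: Maker forces a win in the unhandicapped planar Snaky game within boundedly many claims
-/

namespace Vale.Agent.Results.P062.BoundedForcedWin

open Vale.Agent.P062.Second

/-- Snaky on the initially empty plane, Maker moving first, no handicap.  There is a number `N`
such that: (1) Maker has a strategy which claims only unclaimed cells and with which he owns every
cell of an allowed copy of Snaky after his first `N` claims in every legal play; (2) Breaker has
no strategy preventing this: against every legal strategy of Breaker there is a legal play in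
which Maker owns an allowed copy after his first `N` claims. -/
theorem result : ∃ N : ℕ,
    (∃ σ : List Sq → Sq, LegalStrategy σ ∧
      ∀ x : ℕ → Sq, LegalPlay x → MakerPlays σ x → MakerOwnsCopyAfter x N) ∧
    (∀ τ : List Sq → Sq, LegalStrategy τ →
      ∃ x : ℕ → Sq, LegalPlay x ∧ BreakerPlays τ x ∧ MakerOwnsCopyAfter x N) := by
  obtain ⟨N, hN⟩ := exists_uniform
  refine ⟨N, ⟨sig, sig_legal, fun x hl hf => sig_wins hN hl hf⟩, fun τ hτ => ?_⟩
  exact ⟨duelPlay sig τ, duel_legal sig_legal hτ, duel_breaker sig τ,
    sig_wins hN (duel_legal sig_legal hτ) (duel_maker sig τ)⟩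

end Vale.Agent.Results.P062.BoundedForcedWin
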