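import Vale.Agent.Lib.P062.Full.All

/-!
# P062: Snaky is a winner: Maker wins the unhandicapped achievement game in the plane
-/

namespace Vale.Agent.Results.P062.MakerWins

open Vale.Agent.P062

/-- On the initially empty board `ℤ²`, with no handicap and Maker moving first, Maker has a
winning strategy in the achievement game for Snaky. -/
theorem result : ∃ σ : MakerStrategy, IsWinningStrategy σ := by
  refine ⟨strat, fun b hb => strat_wins b hb ?_⟩
  refine Vale.Agent.P062.Full.reply_wins (b 0) ?_ ?_
  · intro h
    refine (hb 0).1 ⟨0, by omega, ?_⟩
    rw [first_claim, h]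
  · simp [Vale.Agent.P062.Full.exc]

end Vale.Agent.Results.P062.MakerWins
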