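import Vale.Agent.Lib.P062.Part.All

/-!
# P062: Maker wins the unhandicapped Snaky game unless Breaker's first reply is adjacent
-/

namespace Vale.Agent.Results.P062.NonadjacentReply

open Vale.Agent.P062

/-- The four cells sharing an edge with the cell `c`. -/
def orthNeighbours (c : Cell) : Finset Cell :=
  {(c.1 + 1, c.2), (c.1 - 1, c.2), (c.1, c.2 + 1), (c.1, c.2 - 1)}

/-- On the initially empty board `ℤ²`, with no handicap and Maker moving first, Maker has a
strategy that wins every legal play in which Breaker's first claim is not one of the four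
cells sharing an edge with Maker's first cell. -/
theorem result : ∃ σ : MakerStrategy, ∀ b : ℕ → Cell, (∀ n, BreakerLegal σ b n) →
    b 0 ∉ orthNeighbours (makerClaim σ b 0) →
    ∃ n, (∀ i < n, MakerLegal σ b i) ∧ MakerOwnsCopy σ b n := by
  refine ⟨strat, fun b hb hadj => strat_wins b hb ?_⟩
  rw [first_claim] at hadj
  refine Vale.Agent.P062.Part.reply_wins (b 0) ?_ ?_
  · intro h
    refine (hb 0).1 ⟨0, by omega, ?_⟩
    rw [first_claim, h]
  · intro h
    apply hadj
    simp only [Vale.Agent.P062.Part.exc, List.mem_cons, List.not_mem_nil, or_false] at h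
    simp only [orthNeighbours, Finset.mem_insert, Finset.mem_singleton, zero_add, zero_sub]
    tauto

end Vale.Agent.Results.P062.NonadjacentReply
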