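import Vale.Agent.Lib.P062.Second.Uniform
import Vale.Agent.Lib.P062.Third.Play

/-!
# P062: Maker wins the unhandicapped planar Snaky game with a positional strategy
-/

namespace Vale.Agent.Results.P062.PositionalWin

open Vale.Agent.P062.Third

/-- Snaky on the initially empty board `ℤ²`, Maker moving first, no handicap.  There are a
strategy `σ` for Maker, which depends only on the sets `M`, `B` of cells owned by Maker and by
Breaker and always claims an unclaimed cell, and a number `N`, such that in every play (`M n`,
`B n` are the sets of cells owned after `n` rounds; in each round Maker claims the cell given by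
`σ` and then Breaker claims an arbitrary unclaimed cell `b`) Maker owns every cell of some allowed
copy of Snaky after `N` rounds. -/
theorem result : ∃ (σ : Finset (ℤ × ℤ) → Finset (ℤ × ℤ) → ℤ × ℤ) (N : ℕ),
    (∀ M B : Finset (ℤ × ℤ), σ M B ∉ M ∪ B) ∧
    ∀ M B : ℕ → Finset (ℤ × ℤ), M 0 = ∅ → B 0 = ∅ →
      (∀ n, M (n + 1) = insert (σ (M n) (B n)) (M n)) →
      (∀ n, ∃ b, b ∉ M (n + 1) ∪ B n ∧ B (n + 1) = insert b (B n)) →
      ∃ C, IsCopy C ∧ C ⊆ M N :=
  positional Vale.Agent.P062.Second.exists_uniform

end Vale.Agent.Results.P062.PositionalWin
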